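import Vale.Agent.P281.H864.Compat

/-!
# P281, block E1 (helper864): the Hermitian form `herm`
-/

open Set Filter Metric MeasureTheory
open scoped Topology ContDiff ComplexConjugate ENNReal

set_option linter.unusedSectionVars false
set_option linter.deprecated false
set_option linter.unusedVariables false

noncomputable section

namespace Vale.Agent.P281.H864

open Vale.Agent.P281.H64

section
variable {E Γ : Type} [TopologicalSpace E] [Group Γ] [MulAction Γ E]

theorem ca_differentiableAt {S : Sheets E Γ} {h : E → ℂ} {c : Γ → ℂ} (hh : Add S h c) {i : Fin S.N}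
    {z : ℂ} (hz : z ∈ ball (0 : ℂ) 3) : DifferentiableAt ℂ (fun z => h (S.σ i z)) z :=
  (hh.hol i).differentiableAt (isOpen_ball.mem_nhds hz)

theorem continuousOn_deriv {S : Sheets E Γ} {h : E → ℂ} {c : Γ → ℂ} (hh : Add S h c)
    (i : Fin S.N) : ContinuousOn (deriv (fun z => h (S.σ i z))) (ball 0 3) :=
  ((hh.hol i).deriv isOpen_ball).continuousOn

/-- continuous densities are integrable -/
theorem integrableOn_P [ContinuousConstSMul Γ E] (S : Sheets E Γ) (i : Fin S.N) {d : ℂ → ℂ}
    (hd : ContinuousOn d (ball 0 3)) : IntegrableOn d (S.P i) := by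
  have h1 : IntegrableOn d (closedBall 0 1) :=
    (hd.mono cball13).integrableOn_compact (isCompact_closedBall _ _)
  exact h1.mono_set ((P_subset S i).trans ball_subset_closedBall)

/-- transformation rule of the derivatives of additive functions -/
theorem deriv_change {S S' : Sheets E Γ} {h : E → ℂ} {c : Γ → ℂ} (hh : Add S' h c)
    {q : ℂ → E} {v : ℂ} {j : Fin S'.N} {w : ℂ} (hw : w ∈ ball (0 : ℂ) 3)
    {γ : Γ} {θ : ℂ → ℂ} (hθ : DifferentiableAt ℂ θ v) (he : θ v = w)
    (h3 : ∀ᶠ u in 𝓝 v, q u = γ • S'.σ j (θ u)) :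
    deriv (fun u => h (q u)) v = deriv (fun z => h (S'.σ j z)) w * deriv θ v := by
  have h4 : (fun u => h (q u)) =ᶠ[𝓝 v] fun u => h (S'.σ j (θ u)) + c γ :=
    h3.mono fun u hu => by simp only [hu, hh.add]
  rw [h4.deriv_eq, deriv_add_const]
  have h5 : HasDerivAt (fun z => h (S'.σ j z)) (deriv (fun z => h (S'.σ j z)) w) (θ v) := by
    rw [he]
    exact (ca_differentiableAt hh hw).hasDerivAt
  exact (h5.comp v hθ.hasDerivAt).deriv

end

section
variable {E Γ : Type} [TopologicalSpace E] [Group Γ] [MulAction Γ E] [ContinuousConstSMul Γ E]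

theorem lin1 (S : Sheets E Γ) {h₁ h₂ h' : E → ℂ} {c₁ c₂ c' : Γ → ℂ} (s : ℂ)
    (H₁ : Add S h₁ c₁) (H₂ : Add S h₂ c₂) (H' : Add S h' c') :
    S.herm (fun e => s * h₁ e + h₂ e) h' = s * S.herm h₁ h' + S.herm h₂ h' := by
  unfold Sheets.herm Sheets.int
  rw [Finset.mul_sum, ← Finset.sum_add_distrib]
  refine Finset.sum_congr rfl fun i _ => ?_
  have hc' : ContinuousOn (fun z => conj (deriv (fun z => h' (S.σ i z)) z)) (ball 0 3) :=
    Complex.continuous_conj.comp_continuousOn (continuousOn_deriv H' i)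
  rw [← integral_const_mul, ← integral_add]
  · refine setIntegral_congr_fun (meas_P S i) fun z hz => ?_
    have hz3 := P_subset3 S i hz
    have h1 := (ca_differentiableAt H₁ (i := i) hz3).hasDerivAt
    have h2 := (ca_differentiableAt H₂ (i := i) hz3).hasDerivAt
    have h3 : deriv (fun z => s * h₁ (S.σ i z) + h₂ (S.σ i z)) z =
        s * deriv (fun z => h₁ (S.σ i z)) z + deriv (fun z => h₂ (S.σ i z)) z :=
      ((h1.const_mul s).add h2).deriv
    simp only [h3]
    ring
  · exact (integrableOn_P S i ((continuousOn_deriv H₁ i).mul hc')).const_mul s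
  · exact integrableOn_P S i ((continuousOn_deriv H₂ i).mul hc')

theorem symm1 (S : Sheets E Γ) {h h' : E → ℂ} : S.herm h' h = conj (S.herm h h') := by
  unfold Sheets.herm Sheets.int
  rw [map_sum]
  refine Finset.sum_congr rfl fun i _ => ?_
  rw [← integral_conj]
  refine integral_congr_ae (Eventually.of_forall fun z => ?_)
  simp only [map_mul, Complex.conj_conj]
  ring

theorem herm_self (S : Sheets E Γ) {h : E → ℂ} {c : Γ → ℂ} (H : Add S h c) :
    S.herm h h = ((∑ i, ∫ z in S.P i, ‖deriv (fun z => h (S.σ i z)) z‖ ^ 2 : ℝ) : ℂ) := by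
  unfold Sheets.herm Sheets.int
  push_cast
  refine Finset.sum_congr rfl fun i _ => ?_
  refine Eq.trans ?_ (integral_ofReal (𝕜 := ℂ))
  refine integral_congr_ae (Eventually.of_forall fun z => ?_)
  simp only [Complex.mul_conj, Complex.normSq_eq_norm_sq]
  push_cast
  rfl

theorem lint_self (S : Sheets E Γ) {h : E → ℂ} {c : Γ → ℂ} (H : Add S h c) :
    ∑ i, ∫⁻ z in S.P i, ‖deriv (fun z => h (S.σ i z)) z‖ₑ ^ 2 =
      ENNReal.ofReal (S.herm h h).re := by
  rw [herm_self S H, Complex.ofReal_re, ENNReal.ofReal_sum_of_nonneg (fun i _ => by positivity)]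
  refine Finset.sum_congr rfl fun i _ => ?_
  have hi : IntegrableOn (fun z => ‖deriv (fun z => h (S.σ i z)) z‖ ^ 2) (S.P i) := by
    have h1 : ContinuousOn (fun z => ‖deriv (fun z => h (S.σ i z)) z‖ ^ 2) (closedBall 0 1) :=
      ((continuousOn_deriv H i).mono cball13).norm.pow 2
    exact (h1.integrableOn_compact (isCompact_closedBall _ _)).mono_set
      ((P_subset S i).trans ball_subset_closedBall)
  rw [ofReal_integral_eq_lintegral_ofReal hi (Eventually.of_forall fun z => by positivity)]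
  refine lintegral_congr fun z => ?_
  rw [ENNReal.ofReal_pow (norm_nonneg _), ofReal_norm]

theorem nice_disc {S : Sheets E Γ} {q : ℂ → E} {v₀ : ℂ} {r : ℝ} (h : DiscIn S q v₀ r) :
    Nice S q (ball v₀ r) where
  meas := isOpen_ball.measurableSet
  diff := by
    intro v hv i z hz γ he
    obtain ⟨θ, h1, h2, h3⟩ := h.hol v hv i z hz γ he
    refine ⟨θ, h1.differentiableAt.restrictScalars ℝ, h2, ?_, h3⟩
    rw [det_fderiv_real h1.differentiableAt]
    positivity
  inj := h.inj

theorem area1 (S : Sheets E Γ) {h : E → ℂ} {c : Γ → ℂ} {q : ℂ → E} {v₀ : ℂ} {r : ℝ}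
    (H : Add S h c) (hq : DiscIn S q v₀ r) :
    ∫⁻ v in ball v₀ r, ‖deriv (fun v => h (q v)) v‖ₑ ^ 2 ≤ ENNReal.ofReal (S.herm h h).re := by
  rw [← lint_self S H]
  refine (nice_disc hq).lint _ _ ?_
  rintro i v ⟨hv, γ, z, hz, he⟩
  have hz3 := P_subset3 S i hz
  obtain ⟨θ, h1, h2, h3⟩ := hq.hol v hv i z hz3 γ he.symm
  have h4 : (fun u => co S i (q u)) =ᶠ[𝓝 v] θ := by
    have h5 : ∀ᶠ u in 𝓝 v, θ u ∈ ball (0 : ℂ) 3 :=
      h1.continuousAt.eventually (isOpen_ball.mem_nhds (by rwa [h2]))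
    filter_upwards [h3, h5] with u a1 a2
    exact co_eq a2 a1.symm
  have h5 : |(jd S q i v).det| = ‖deriv θ v‖ ^ 2 := by
    unfold jd
    rw [h4.fderiv_eq, det_fderiv_real h1.differentiableAt, abs_of_nonneg (by positivity)]
  rw [h5, co_eq hz3 he, deriv_change (S := S) H hz3 h1.differentiableAt h2 h3, enorm_mul, mul_pow,
    ENNReal.ofReal_pow (norm_nonneg _), ofReal_norm, mul_comm]

theorem disc_self (S : Sheets E Γ) (i : Fin S.N) : DiscIn S (S.σ i) 0 1 where
  hol v hv j z hz γ he := S.hol i j v (ball13 hv) z hz γ he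
  inj v hv v' hv' γ he := (nice_self S i).inj v (ball13 hv) v' (ball13 hv') γ he

theorem pos1 [PreconnectedSpace E] (S : Sheets E Γ) {h : E → ℂ} {c : Γ → ℂ} (H : Add S h c)
    (h0 : S.herm h h = 0) (hE : Nonempty E) : ∀ γ, c γ = 0 := by
  have h1 : ∀ i, ∀ z ∈ ball (0 : ℂ) 1, deriv (fun z => h (S.σ i z)) z = 0 := by
    intro i
    have h2 : ∫⁻ v in ball (0 : ℂ) 1, ‖deriv (fun v => h (S.σ i v)) v‖ₑ ^ 2 = 0 := by
      have := area1 S H (disc_self S i)
      rw [h0, Complex.zero_re, ENNReal.ofReal_zero] at this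
      exact le_antisymm this zero_le'
    have hc : ContinuousOn (fun v => ‖deriv (fun v => h (S.σ i v)) v‖ₑ ^ 2) (ball 0 1) := by
      have h3 := (continuousOn_deriv H i).mono ball13
      exact (ENNReal.continuous_pow 2).comp_continuousOn (continuous_enorm.comp_continuousOn h3)
    have h3 := (lintegral_eq_zero_iff' (hc.aemeasurable isOpen_ball.measurableSet)).1 h2
    have h4 := Measure.eqOn_open_of_ae_eq h3 isOpen_ball hc continuousOn_const
    intro z hz
    have h5 := h4 hz
    simpa using h5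
  have h2 : IsLocallyConstant h := by
    rw [IsLocallyConstant.iff_eventually_eq]
    intro e
    obtain ⟨γ, i, z, hz, rfl⟩ := S.cover e
    have hz' : z ∈ ball (0 : ℂ) 1 := by simpa using hz
    have h3 : ∀ w ∈ ball (0 : ℂ) 1, h (S.σ i w) = h (S.σ i z) := by
      intro w hw
      exact isOpen_ball.is_const_of_deriv_eq_zero (convex_ball _ _).isPreconnected
        ((H.hol i).mono ball13) (fun u hu => h1 i u hu) hw hz'
    have h4 : Filter.map (fun w => γ • S.σ i w) (𝓝 z) = 𝓝 (γ • S.σ i z) := by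
      have : Filter.map (fun e => γ • e) (𝓝 (S.σ i z)) = 𝓝 (γ • S.σ i z) :=
        (Homeomorph.smul γ).map_nhds_eq _
      rw [← this, ← S.map_nhds i z (ball13 hz'), Filter.map_map]
      rfl
    rw [← h4, Filter.eventually_map]
    filter_upwards [isOpen_ball.mem_nhds hz'] with w hw
    rw [H.add, H.add, h3 w hw]
  intro γ
  obtain ⟨e⟩ := hE
  have h3 := h2.apply_eq_of_preconnectedSpace (γ • e) e
  rw [H.add] at h3
  simpa using h3

theorem inv1 (S : Sheets E Γ) {h h' : E → ℂ} {c c' : Γ → ℂ} (S' : Sheets E Γ)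
    (hS : HolCompat S S') (H : Add S h c) (H' : Add S h' c') : S'.herm h h' = S.herm h h' := by
  have G := add_compat hS H
  have G' := add_compat hS H'
  have hc : ∀ (S : Sheets E Γ), Add S h c → Add S h' c' → ∀ i, ContinuousOn (fun z =>
      deriv (fun z => h (S.σ i z)) z * conj (deriv (fun z => h' (S.σ i z)) z)) (ball 0 3) :=
    fun S H H' i => (continuousOn_deriv H i).mul
      (Complex.continuous_conj.comp_continuousOn (continuousOn_deriv H' i))
  refine (int_compat (holCompat_compat hS) (fun i => integrableOn_P S i (hc S H H' i))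
    (fun i => integrableOn_P S' i (hc S' G G' i)) ?_).symm
  intro i j z hz w hw γ ψ he hψ hψz hdet hev
  obtain ⟨θ, h1, h2, h3, h4⟩ := hS i j z hz w hw γ he
  have hψθ : ψ =ᶠ[𝓝 z] θ := by
    have a1 : ∀ᶠ u in 𝓝 z, ψ u ∈ ball (0 : ℂ) 3 :=
      hψ.continuousAt.eventually (isOpen_ball.mem_nhds (by rwa [hψz]))
    have a2 : ∀ᶠ u in 𝓝 z, θ u ∈ ball (0 : ℂ) 3 :=
      h1.continuousAt.eventually (isOpen_ball.mem_nhds (by rwa [h2]))
    filter_upwards [a1, a2, hev, h4] with u b1 b2 b3 b4
    exact (uniq (S := S') (i := j) (γ := γ) (δ := γ) b1 b2 (b3.symm.trans b4)).2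
  rw [hψθ.fderiv_eq, det_fderiv_real h1.differentiableAt,
    deriv_change (S := S) (S' := S') G hw h1.differentiableAt h2 h4,
    deriv_change (S := S) (S' := S') G' hw h1.differentiableAt h2 h4, map_mul, Complex.real_smul]
  have : ((‖deriv θ z‖ ^ 2 : ℝ) : ℂ) = deriv θ z * conj (deriv θ z) := by
    rw [Complex.mul_conj, Complex.normSq_eq_norm_sq]
  rw [this]
  ring

end

/-- **Block E1.** -/
theorem e1 : E1Stmt := by
  intro E Γ _ _ _ _ _ _ S
  exact
    { lin := fun s H₁ H₂ H' => lin1 S s H₁ H₂ H'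
      symm := fun _ _ => symm1 S
      nonneg := fun {h c} H => by
        rw [herm_self S H, Complex.ofReal_re]
        positivity
      pos := fun {h c} H h0 => pos1 S H h0 inferInstance
      area := fun H hq => area1 S H hq
      inv := fun S' hS H H' => inv1 S S' hS H H' }

end Vale.Agent.P281.H864
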