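import Vale.Agent.P281.H864.Smooth

/-!
# P281, blocks E2, E3 (helper864)
-/

open Set Filter Metric MeasureTheory
open scoped Topology ContDiff ComplexConjugate ENNReal

set_option linter.unusedSectionVars false
set_option linter.deprecated false
set_option linter.unusedVariables false

noncomputable section

namespace Vale.Agent.P281.H864

open Vale.Agent.P281.H64

variable {E Γ : Type} [TopologicalSpace E] [Group Γ] [MulAction Γ E]

theorem smooth_add {S : Sheets E Γ} {h : E → ℂ} {c : Γ → ℂ} (hh : Add S h c) : S.Smooth h := by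
  intro i γ
  have h1 : ContDiffOn ℂ ∞ (fun z => h (S.σ i z)) (ball 0 3) :=
    (hh.hol i).contDiffOn isOpen_ball
  have h2 : ContDiffOn ℝ ∞ (fun z => h (S.σ i z) + c γ) (ball 0 3) :=
    (h1.restrict_scalars ℝ).add contDiffOn_const
  exact h2.congr fun z _ => hh.add γ _

theorem smooth_re {S : Sheets E Γ} {h : E → ℂ} (hh : S.Smooth h) :
    S.Smooth fun e => ((h e).re : ℂ) := by
  intro i γ
  exact (Complex.ofRealCLM.comp Complex.reCLM).contDiff.comp_contDiffOn (hh i γ)

theorem smooth_compat {S S' : Sheets E Γ} (hS : Compat S S') {u : E → ℂ} (hu : S'.Smooth u) :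
    S.Smooth u := by
  rw [smooth_iff]
  intro i γ z hz
  obtain ⟨δ, j, w, hw, he⟩ := S'.cover (S.σ i z)
  have hw3 : w ∈ ball (0 : ℂ) 3 := ball13 (by simpa using hw)
  obtain ⟨ψ, h1, h2, h3, h4⟩ := hS i j z hz w hw3 δ he.symm
  have h5 : ContDiffAt ℝ ∞ (fun w => u ((γ * δ) • S'.σ j w)) (ψ z) := by
    rw [h2]
    exact smooth_iff.1 hu j _ w hw3
  refine (h5.comp z h1).congr_of_eventuallyEq ?_
  filter_upwards [h4] with x hx
  rw [hx]
  simp only [Function.comp, mul_smul]

variable [ContinuousConstSMul Γ E]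

/-- `∫ du ∧ dv` -/
def J (S : Sheets E Γ) (u v : E → ℂ) : ℂ := S.int (W S u v)

theorem diffAt {S : Sheets E Γ} {u : E → ℂ} (hu : S.Smooth u) {i : Fin S.N} {z : ℂ}
    (hz : z ∈ ball (0 : ℂ) 3) : DifferentiableAt ℝ (fun z => u (S.σ i z)) z :=
  ((Smooth.self hu i).contDiffAt (isOpen_ball.mem_nhds hz)).differentiableAt (by simp)

theorem J_swap (S : Sheets E Γ) (u v : E → ℂ) : J S u v = - J S v u := by
  unfold J Sheets.int
  rw [← Finset.sum_neg_distrib]
  refine Finset.sum_congr rfl fun i _ => ?_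
  rw [← integral_neg]
  refine integral_congr_ae (Eventually.of_forall fun z => ?_)
  simp only [W, wd]
  ring

theorem J_add (S : Sheets E Γ) {u v w : E → ℂ} (hu : S.Smooth u) (hv : S.Smooth v)
    (hw : S.Smooth w) : J S (fun e => u e + v e) w = J S u w + J S v w := by
  unfold J Sheets.int
  rw [← Finset.sum_add_distrib]
  refine Finset.sum_congr rfl fun i _ => ?_
  rw [← integral_add (integrable_W hu hw i) (integrable_W hv hw i)]
  refine setIntegral_congr_fun (meas_P S i) fun z hz => ?_
  have hz3 := P_subset3 S i hz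
  simp only [W, wd]
  rw [fderiv_fun_add (diffAt hu hz3) (diffAt hv hz3)]
  simp only [ContinuousLinearMap.add_apply]
  ring

theorem J_smul (S : Sheets E Γ) {u w : E → ℂ} (c : ℂ) (hu : S.Smooth u) (hw : S.Smooth w) :
    J S (fun e => c * u e) w = c * J S u w := by
  unfold J Sheets.int
  rw [Finset.mul_sum]
  refine Finset.sum_congr rfl fun i _ => ?_
  rw [← integral_const_mul]
  refine setIntegral_congr_fun (meas_P S i) fun z hz => ?_
  have hz3 := P_subset3 S i hz
  simp only [W, wd]
  rw [fderiv_const_mul (diffAt hu hz3)]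
  simp only [ContinuousLinearMap.smul_apply, smul_eq_mul]
  ring

theorem J_sum (S : Sheets E Γ) {n : ℕ} (x : Fin n → ℂ) {u : Fin n → E → ℂ} {w : E → ℂ}
    (hu : ∀ k, S.Smooth (u k)) (hw : S.Smooth w) :
    J S (fun e => ∑ k, x k * u k e) w = ∑ k, x k * J S (u k) w := by
  have h1 : ∀ s : Finset (Fin n), S.Smooth (fun e => ∑ k ∈ s, x k * u k e) := fun s =>
    Smooth.sum _ fun k _ => Smooth.mul (Smooth.const (x k)) (hu k)
  have h2 : ∀ s : Finset (Fin n),
      J S (fun e => ∑ k ∈ s, x k * u k e) w = ∑ k ∈ s, x k * J S (u k) w := by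
    intro s
    induction s using Finset.induction_on with
    | empty =>
      simp only [Finset.sum_empty]
      unfold J Sheets.int W wd
      simp
    | insert a s ha ih =>
      simp only [Finset.sum_insert ha]
      rw [J_add S (Smooth.mul (Smooth.const (x a)) (hu a)) (h1 s) hw, J_smul S (x a) (hu a) hw, ih]
  exact h2 Finset.univ

theorem J_compat {S S' : Sheets E Γ} (hS : Compat S S') {u v : E → ℂ} {a b : Γ → ℂ}
    (hu : S'.Smooth u) (hv : S'.Smooth v) (hua : ∀ γ e, u (γ • e) = u e + a γ)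
    (hvb : ∀ γ e, v (γ • e) = v e + b γ) : J S u v = J S' u v := by
  refine int_compat hS (fun i => integrable_W (smooth_compat hS hu) (smooth_compat hS hv) i)
    (fun i => integrable_W hu hv i) ?_
  intro i j z hz w hw γ ψ he hψ hψz hdet hev
  exact W_change hu hv hua hvb hw hψ hψz hev

theorem add_hom {S : Sheets E Γ} {h : E → ℂ} {c : Γ → ℂ} (H : Add S h c) [Nonempty E] (x y : Γ) :
    c (x * y) = c x + c y := by
  obtain ⟨e⟩ := ‹Nonempty E›
  have h1 := H.add (x * y) e
  rw [mul_smul, H.add, H.add] at h1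
  have : h e + (c y + c x) = h e + c (x * y) := by rw [← h1]; ring
  rw [add_comm (c x)]
  exact (add_left_cancel this).symm

theorem herm_im (S : Sheets E Γ) {h h' : E → ℂ} {c c' : Γ → ℂ} (H : Add S h c) (H' : Add S h' c') :
    ((S.herm h h').im : ℂ) = J S (fun e => ((h e).re : ℂ)) (fun e => ((h' e).re : ℂ)) := by
  have hc : ∀ i, ContinuousOn (fun z =>
      deriv (fun z => h (S.σ i z)) z * conj (deriv (fun z => h' (S.σ i z)) z)) (ball 0 3) :=
    fun i => (continuousOn_deriv H i).mul
      (Complex.continuous_conj.comp_continuousOn (continuousOn_deriv H' i))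
  have hr : ∀ {h : E → ℂ} {c : Γ → ℂ} (H : Add S h c) {i : Fin S.N} {z : ℂ}
      (hz : z ∈ ball (0 : ℂ) 3) (v : ℂ), fderiv ℝ (fun z => ((h (S.σ i z)).re : ℂ)) z v =
        ((deriv (fun z => h (S.σ i z)) z * v).re : ℂ) := by
    intro h c H i z hz v
    have h1 : HasFDerivAt (fun z => h (S.σ i z)) ((fderiv ℂ (fun z => h (S.σ i z)) z).restrictScalars
      ℝ) z := (ca_differentiableAt H hz).hasFDerivAt.restrictScalars ℝ
    have h2 := ((Complex.ofRealCLM.comp Complex.reCLM).hasFDerivAt
      (x := h (S.σ i z))).comp z h1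
    have h3 : fderiv ℝ (fun z => ((h (S.σ i z)).re : ℂ)) z = _ := h2.fderiv
    rw [h3]
    simp only [ContinuousLinearMap.comp_apply, ContinuousLinearMap.coe_restrictScalars',
      Complex.ofRealCLM_apply, Complex.reCLM_apply]
    rw [← fderiv_apply_one_eq_deriv]
    congr 2
    have := (fderiv ℂ (fun z => h (S.σ i z)) z).map_smul v 1
    simp only [smul_eq_mul, mul_one] at this
    rw [this, mul_comm]
  unfold Sheets.herm J Sheets.int
  rw [Complex.im_sum]
  push_cast
  refine Finset.sum_congr rfl fun i _ => ?_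
  have h1 : (∫ z in S.P i, deriv (fun z => h (S.σ i z)) z *
      conj (deriv (fun z => h' (S.σ i z)) z)).im = ∫ z in S.P i, (deriv (fun z => h (S.σ i z)) z *
      conj (deriv (fun z => h' (S.σ i z)) z)).im := by
    have := Complex.imCLM.integral_comp_comm (integrableOn_P S i (hc i))
    exact this.symm
  rw [h1, ← integral_complex_ofReal]
  refine setIntegral_congr_fun (meas_P S i) fun z hz => ?_
  have hz3 := P_subset3 S i hz
  simp only [W, wd]
  rw [hr H hz3, hr H hz3, hr H' hz3, hr H' hz3]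
  simp only [Complex.mul_im, Complex.mul_re, Complex.conj_re, Complex.conj_im, Complex.one_re,
    Complex.one_im, Complex.I_re, Complex.I_im]
  push_cast
  ring

/-- **Block E3.** -/
theorem e3 : E3Stmt := by
  intro E Γ _ _ _ _ _ _ S v h c hv hv' H
  have h1 := stokes S hv hv' (smooth_add H) (fun γ e => H.add γ e)
  have h2 : S.int (fun i z => dbar (fun z => v (S.σ i z)) z * deriv (fun z => h (S.σ i z)) z) =
      (2 * Complex.I)⁻¹ * S.int (W S v h) := by
    unfold Sheets.int
    rw [Finset.mul_sum]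
    refine Finset.sum_congr rfl fun i _ => ?_
    rw [← integral_const_mul]
    refine setIntegral_congr_fun (meas_P S i) fun z hz => ?_
    have hz3 := P_subset3 S i hz
    have h3 : ∀ w : ℂ, fderiv ℝ (fun z => h (S.σ i z)) z w =
        deriv (fun z => h (S.σ i z)) z * w := by
      intro w
      have := ((ca_differentiableAt H (i := i) hz3).hasFDerivAt.restrictScalars ℝ).fderiv
      rw [this, ContinuousLinearMap.coe_restrictScalars', ← fderiv_apply_one_eq_deriv]
      have := (fderiv ℂ (fun z => h (S.σ i z)) z).map_smul w 1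
      simp only [smul_eq_mul, mul_one] at this
      rw [this, mul_comm]
    simp only [W, wd, dbar, h3]
    have hI : (2 * Complex.I)⁻¹ = -Complex.I / 2 := by
      rw [mul_inv, Complex.inv_I]
      ring
    rw [hI]
    linear_combination ((1 / 2) * fderiv ℝ (fun z => v (S.σ i z)) z 1 *
      deriv (fun z => h (S.σ i z)) z) * Complex.I_mul_I
  rw [h2, h1, mul_zero]

/-- **Block E2.** -/
theorem e2 : E2Stmt := by
  intro E Γ _ _ _ _ _ _ S n M
  let U : Fin n → E → ℂ := fun k => uu S (fun γ => ((M.φ k γ : ℤ) : ℂ))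
  have hU : ∀ k, S.Smooth (U k) := fun k => uu_smooth S _
  have hUa : ∀ k γ e, U k (γ • e) = U k e + ((M.φ k γ : ℤ) : ℂ) := fun k γ e =>
    uu_add S (fun x y => by rw [M.hom]; push_cast; rfl) γ e
  refine ⟨fun k l => (J S (U k) (U l)).re, ?_⟩
  intro S' hS' h c h' c' H H'
  -- decomposition of a real part
  have dec : ∀ {h : E → ℂ} {c : Γ → ℂ} (H : Add S' h c), ∃ v : E → ℂ, S.Smooth v ∧
      (∀ (γ : Γ) e, v (γ • e) = v e) ∧ ∀ e, ((h e).re : ℂ) = (∑ k, ((c (M.g k)).re : ℂ) * U k e) + v e := by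
    intro h c H
    have hs : S.Smooth fun e => ((h e).re : ℂ) :=
      smooth_compat (compat_symm hS') (smooth_re (smooth_add H))
    refine ⟨fun e => ((h e).re : ℂ) - ∑ k, ((c (M.g k)).re : ℂ) * U k e,
      Smooth.sub hs (Smooth.sum _ fun k _ => Smooth.mul (Smooth.const _) (hU k)), ?_, ?_⟩
    · intro γ e
      have h1 := M.complete (fun γ => (c γ).re) (fun x y => by
        simp only [add_hom H, Complex.add_re]) γ
      simp only [hUa, H.add, Complex.add_re, mul_add, Finset.sum_add_distrib]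
      rw [h1]
      push_cast
      ring
    · intro e
      ring
  obtain ⟨v, hv, hv', hd⟩ := dec H
  obtain ⟨v', hw, hw', hd'⟩ := dec H'
  have hs : ∀ {h : E → ℂ} {c : Γ → ℂ} (H : Add S' h c), S.Smooth fun e => ((h e).re : ℂ) :=
    fun H => smooth_compat (compat_symm hS') (smooth_re (smooth_add H))
  have hsum : ∀ x : Fin n → ℂ, S.Smooth (fun e => ∑ k, x k * U k e) := fun x =>
    Smooth.sum _ fun k _ => Smooth.mul (Smooth.const _) (hU k)
  have key : ((S'.herm h h').im : ℂ) = ∑ k, ∑ l, ((c (M.g k)).re : ℂ) * ((c' (M.g l)).re : ℂ) *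
      J S (U k) (U l) := by
    rw [herm_im S' H H', J_compat hS' (hs H) (hs H') (a := fun γ => ((c γ).re : ℂ))
      (b := fun γ => ((c' γ).re : ℂ)) (fun γ e => by rw [H.add]; simp)
      (fun γ e => by rw [H'.add]; simp)]
    have f1 : (fun e => ((h e).re : ℂ)) = fun e => (∑ k, ((c (M.g k)).re : ℂ) * U k e) + v e :=
      funext hd
    have f2 : (fun e => ((h' e).re : ℂ)) = fun e => (∑ k, ((c' (M.g k)).re : ℂ) * U k e) + v' e :=
      funext hd'
    have st1 : J S v (fun e => ((h' e).re : ℂ)) = 0 :=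
      stokes S hv hv' (hs H') (c := fun γ => ((c' γ).re : ℂ)) (fun γ e => by rw [H'.add]; simp)
    have st2 : ∀ k, J S v' (U k) = 0 := fun k => stokes S hw hw' (hU k) (hUa k)
    rw [f1, J_add S (hsum _) hv (hs H'), st1, add_zero, J_sum S _ hU (hs H')]
    refine Finset.sum_congr rfl fun k _ => ?_
    rw [J_swap, f2, J_add S (hsum _) hw (hU k), st2, add_zero, J_sum S _ hU (hU k),
      ← Finset.sum_neg_distrib, Finset.mul_sum]
    refine Finset.sum_congr rfl fun l _ => ?_
    rw [J_swap S (U l) (U k)]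
    ring
  have := congrArg Complex.re key
  rw [Complex.ofReal_re] at this
  rw [this]
  simp only [Complex.re_sum]
  refine Finset.sum_congr rfl fun k _ => Finset.sum_congr rfl fun l _ => ?_
  rw [← Complex.ofReal_mul, Complex.re_ofReal_mul]
  ring

end Vale.Agent.P281.H864
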