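import Vale.Agent.P281.H864.Change

/-!
# P281, blocks E1-E3 (helper864): compatible sheets
-/

open Set Filter Metric MeasureTheory
open scoped Topology ContDiff ComplexConjugate ENNReal

set_option linter.unusedSectionVars false
set_option linter.deprecated false
set_option linter.unusedVariables false

noncomputable section

namespace Vale.Agent.P281.H864

open Vale.Agent.P281.H64

/-- local inverse of a smooth map -/
theorem inv_smooth {ψ : ℂ → ℂ} {z : ℂ} (h : ContDiffAt ℝ ∞ ψ z)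
    (hd : 0 < (fderiv ℝ ψ z).det) : ∃ χ : ℂ → ℂ, ContDiffAt ℝ ∞ χ (ψ z) ∧ χ (ψ z) = z ∧
      0 < (fderiv ℝ χ (ψ z)).det ∧ ∀ᶠ u in 𝓝 (ψ z), ψ (χ u) = u := by
  have hn : (∞ : WithTop ℕ∞) ≠ 0 := by simp
  have hdiff : DifferentiableAt ℝ ψ z := h.differentiableAt hn
  let e : ℂ ≃L[ℝ] ℂ := ContinuousLinearEquiv.ofBijective (fderiv ℝ ψ z) (by
      rw [LinearMap.ker_eq_bot]
      exact (LinearEquiv.ofIsUnitDet (f := (fderiv ℝ ψ z : ℂ →ₗ[ℝ] ℂ))
        (v := Complex.basisOneI) (v' := Complex.basisOneI) (by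
          rw [LinearMap.det_toMatrix]
          exact isUnit_iff_ne_zero.2 hd.ne')).injective) (by
      rw [LinearMap.range_eq_top]
      exact (LinearEquiv.ofIsUnitDet (f := (fderiv ℝ ψ z : ℂ →ₗ[ℝ] ℂ))
        (v := Complex.basisOneI) (v' := Complex.basisOneI) (by
          rw [LinearMap.det_toMatrix]
          exact isUnit_iff_ne_zero.2 hd.ne')).surjective)
  have he : (e : ℂ →L[ℝ] ℂ) = fderiv ℝ ψ z := by
    ext <;> simp [e]
  have hf' : HasFDerivAt ψ (e : ℂ →L[ℝ] ℂ) z := by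
    rw [he]
    exact hdiff.hasFDerivAt
  have h1 := h.to_localInverse hf' hn
  have h2 := h.localInverse_apply_image hf' hn
  have h3 : ∀ᶠ u in 𝓝 (ψ z), ψ (h.localInverse hf' hn u) = u :=
    (h.hasStrictFDerivAt' hf' hn).eventually_right_inverse
  refine ⟨h.localInverse hf' hn, h1, h2, ?_, h3⟩
  set χ := h.localInverse hf' hn
  have h4 : HasFDerivAt (fun u => ψ (χ u)) ((fderiv ℝ ψ z).comp (fderiv ℝ χ (ψ z))) (ψ z) := by
    have h5 : HasFDerivAt ψ (fderiv ℝ ψ z) (χ (ψ z)) := by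
      rw [h2]
      exact hdiff.hasFDerivAt
    exact h5.comp (ψ z) (h1.differentiableAt hn).hasFDerivAt
  have h5 : HasFDerivAt (fun u => ψ (χ u)) (ContinuousLinearMap.id ℝ ℂ) (ψ z) :=
    (hasFDerivAt_id (𝕜 := ℝ) (ψ z)).congr_of_eventuallyEq h3
  have h6 := h4.unique h5
  have h7 : (fderiv ℝ ψ z).det * (fderiv ℝ χ (ψ z)).det = 1 := by
    have := congrArg ContinuousLinearMap.det h6
    unfold ContinuousLinearMap.det at this ⊢
    rw [ContinuousLinearMap.toLinearMap_comp, LinearMap.det_comp] at this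
    rw [this]
    exact LinearMap.det_id
  by_contra h8
  nlinarith

/-- local inverse of a holomorphic map -/
theorem inv_hol {θ : ℂ → ℂ} {z : ℂ} (h : AnalyticAt ℂ θ z)
    (hd : deriv θ z ≠ 0) : ∃ χ : ℂ → ℂ, AnalyticAt ℂ χ (θ z) ∧ χ (θ z) = z ∧
      deriv χ (θ z) ≠ 0 ∧ ∀ᶠ u in 𝓝 (θ z), θ (χ u) = u := by
  have hn : (ω : WithTop ℕ∞) ≠ 0 := by simp
  have h0 : ContDiffAt ℂ ω θ z := h.contDiffAt
  have hf' : HasFDerivAt θ
      ((ContinuousLinearEquiv.unitsEquivAut ℂ (Units.mk0 _ hd) : ℂ ≃L[ℂ] ℂ) : ℂ →L[ℂ] ℂ) z :=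
    (h.hasStrictDerivAt.hasStrictFDerivAt_equiv hd).hasFDerivAt
  have h1 := h0.to_localInverse hf' hn
  have h2 := h0.localInverse_apply_image hf' hn
  have h3 : ∀ᶠ u in 𝓝 (θ z), θ (h0.localInverse hf' hn u) = u :=
    (h0.hasStrictFDerivAt' hf' hn).eventually_right_inverse
  have h4 : AnalyticAt ℂ (h0.localInverse hf' hn) (θ z) := h1.analyticAt
  refine ⟨h0.localInverse hf' hn, h4, h2, ?_, h3⟩
  set χ := h0.localInverse hf' hn
  have h5 : HasDerivAt (fun u => θ (χ u)) (deriv θ z * deriv χ (θ z)) (θ z) := by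
    have h6 : HasDerivAt θ (deriv θ z) (χ (θ z)) := by
      rw [h2]
      exact h.differentiableAt.hasDerivAt
    exact h6.comp (θ z) h4.differentiableAt.hasDerivAt
  have h6 : HasDerivAt (fun u => θ (χ u)) 1 (θ z) :=
    (hasDerivAt_id (θ z)).congr_of_eventuallyEq h3
  intro h7
  have := h5.unique h6
  rw [h7, mul_zero] at this
  exact zero_ne_one this

section
variable {E Γ : Type} [TopologicalSpace E] [Group Γ] [MulAction Γ E]

theorem compat_symm {S S' : Sheets E Γ} (h : Compat S S') : Compat S' S := by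
  intro j i w hw z hz γ he
  have he' : S.σ i z = γ⁻¹ • S'.σ j w := by rw [he, inv_smul_smul]
  obtain ⟨ψ, h1, h2, h3, h4⟩ := h i j z hz w hw γ⁻¹ he'
  obtain ⟨χ, g1, g2, g3, g4⟩ := inv_smooth h1 h3
  rw [h2] at g1 g2 g3 g4
  refine ⟨χ, g1, g2, g3, ?_⟩
  have h5 : Tendsto χ (𝓝 w) (𝓝 z) := by
    have := g1.continuousAt.tendsto
    rwa [g2] at this
  filter_upwards [h5.eventually h4, g4] with u a1 a2
  rw [a1, smul_inv_smul, a2]

theorem holCompat_symm {S S' : Sheets E Γ} (h : HolCompat S S') : HolCompat S' S := by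
  intro j i w hw z hz γ he
  have he' : S.σ i z = γ⁻¹ • S'.σ j w := by rw [he, inv_smul_smul]
  obtain ⟨ψ, h1, h2, h3, h4⟩ := h i j z hz w hw γ⁻¹ he'
  obtain ⟨χ, g1, g2, g3, g4⟩ := inv_hol h1 h3
  rw [h2] at g1 g2 g3 g4
  refine ⟨χ, g1, g2, g3, ?_⟩
  have h5 : Tendsto χ (𝓝 w) (𝓝 z) := by
    have := g1.continuousAt.tendsto
    rwa [g2] at this
  filter_upwards [h5.eventually h4, g4] with u a1 a2
  rw [a1, smul_inv_smul, a2]

theorem holCompat_compat {S S' : Sheets E Γ} (h : HolCompat S S') : Compat S S' := by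
  intro i j z hz w hw γ he
  obtain ⟨θ, h1, h2, h3, h4⟩ := h i j z hz w hw γ he
  refine ⟨θ, ?_, h2, ?_, h4⟩
  · exact (h1.contDiffAt.restrict_scalars ℝ).of_le le_top
  · rw [det_fderiv_real h1.differentiableAt]
    exact pow_pos (norm_pos_iff.2 h3) 2

/-- the transition maps of one Riemann surface have nonzero derivative -/
theorem holCompat_refl (S : Sheets E Γ) : HolCompat S S := by
  intro i j z hz w hw γ he
  obtain ⟨θ, h1, h2, h3⟩ := S.hol i j z hz w hw γ he
  have he' : S.σ j w = γ⁻¹ • S.σ i z := by rw [he, inv_smul_smul]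
  obtain ⟨η, g1, g2, g3⟩ := S.hol j i w hw z hz γ⁻¹ he'
  refine ⟨θ, h1, h2, ?_, h3⟩
  have ht : Tendsto θ (𝓝 z) (𝓝 w) := by
    have := h1.continuousAt.tendsto
    rwa [h2] at this
  have ht' : Tendsto η (𝓝 w) (𝓝 z) := by
    have := g1.continuousAt.tendsto
    rwa [g2] at this
  have h5 : ∀ᶠ u in 𝓝 z, η (θ u) = u := by
    filter_upwards [h3, ht.eventually g3, (ht'.comp ht).eventually (isOpen_ball.mem_nhds hz),
      isOpen_ball.mem_nhds hz] with u a1 a2 a3 a4
    refine (uniq (S := S) (i := i) (γ := 1) (δ := 1) a3 a4 ?_).2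
    rw [one_smul, one_smul, a1, a2, smul_inv_smul]
    rfl
  have h6 : HasDerivAt (fun u => η (θ u)) (deriv η w * deriv θ z) z := by
    have h7 : HasDerivAt η (deriv η w) (θ z) := by
      rw [h2]
      exact g1.differentiableAt.hasDerivAt
    exact h7.comp z h1.differentiableAt.hasDerivAt
  have h7 : HasDerivAt (fun u => η (θ u)) 1 z :=
    (hasDerivAt_id z).congr_of_eventuallyEq h5
  intro h8
  have := h6.unique h7
  rw [h8, mul_zero] at this
  exact zero_ne_one this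

theorem compat_refl (S : Sheets E Γ) : Compat S S := holCompat_compat (holCompat_refl S)

/-- holomorphic additive functions do not depend on the sheets -/
theorem add_compat {S S' : Sheets E Γ} (h : HolCompat S S') {f : E → ℂ} {c : Γ → ℂ}
    (hf : Add S f c) : Add S' f c where
  add := hf.add
  hol := by
    intro j w hw
    obtain ⟨γ, i, z, hz, he⟩ := S.cover (S'.σ j w)
    have hz' : z ∈ ball (0 : ℂ) 3 := ball13 (by simpa using hz)
    obtain ⟨θ, h1, h2, h3, h4⟩ := holCompat_symm h j i w hw z hz' γ he.symm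
    have h5 : DifferentiableAt ℂ (fun u => f (S.σ i (θ u)) + c γ) w := by
      have h6 : DifferentiableAt ℂ (fun z => f (S.σ i z)) (θ w) := by
        rw [h2]
        exact (hf.hol i).differentiableAt (isOpen_ball.mem_nhds hz')
      exact (DifferentiableAt.comp w h6 h1.differentiableAt).add_const _
    refine (h5.congr_of_eventuallyEq ?_).differentiableWithinAt
    filter_upwards [h4] with u hu
    rw [hu, hf.add]

variable [ContinuousConstSMul Γ E]

theorem nice_compat {S S' : Sheets E Γ} (h : Compat S S') (i : Fin S.N) :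
    Nice S' (S.σ i) (ball 0 3) where
  meas := isOpen_ball.measurableSet
  diff := by
    intro v hv j z hz γ he
    obtain ⟨ψ, h1, h2, h3, h4⟩ := h i j v hv z hz γ he
    exact ⟨ψ, h1.differentiableAt (by simp), h2, h3.le, h4⟩
  inj := (nice_self S i).inj

/-- Invariance of the integral of a 2-form. -/
theorem int_compat {S S' : Sheets E Γ} (h : Compat S S') {d : Fin S.N → ℂ → ℂ}
    {d' : Fin S'.N → ℂ → ℂ} (hd : ∀ i, IntegrableOn (d i) (S.P i))
    (hd' : ∀ i, IntegrableOn (d' i) (S'.P i))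
    (hc : ∀ i j, ∀ z ∈ ball (0 : ℂ) 3, ∀ w ∈ ball (0 : ℂ) 3, ∀ (γ : Γ) (ψ : ℂ → ℂ),
      S.σ i z = γ • S'.σ j w → DifferentiableAt ℝ ψ z → ψ z = w → 0 ≤ (fderiv ℝ ψ z).det →
      (∀ᶠ u in 𝓝 z, S.σ i u = γ • S'.σ j (ψ u)) →
      d i z = (fderiv ℝ ψ z).det • d' j w) :
    S.int d = S'.int d' := by
  have hn : ∀ k, Nice S' (S.σ k) (S.P k) := fun k =>
    (nice_compat h k).mono (P_subset3 S k) (meas_P S k)
  refine int_family (S := S') (q := S.σ) (A := S.P) hn ?_ hd' hd ?_ ?_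
  · intro k l hkl v hv w hw γ he
    exact hkl (P_disj (e := S.σ l w) ⟨γ, v, hv, he⟩ ⟨1, w, hw, one_smul _ _⟩)
  · rintro k i v ⟨hv, γ, z, hz, he⟩
    have hv3 := P_subset3 S k hv
    have hz3 := P_subset3 S' i hz
    have h1 := (hn k).eventually hv i hz3 he.symm
    unfold jd
    rw [abs_of_nonneg h1.2.1, co_eq hz3 he]
    exact hc k i v hv3 z hz3 γ _ he.symm h1.1 (co_eq hz3 he) h1.2.1 (h1.2.2.mono fun u hu => hu.2)
  · intro i z hz _
    obtain ⟨k, γ, v, hv, he⟩ := exists_P S (S'.σ i z)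
    exact ⟨k, γ, v, hv, he⟩

end

end Vale.Agent.P281.H864
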