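import Vale.Agent.P281.H864.E1

/-!
# P281, blocks E2, E3 (helper864): Stokes in the plane
-/

open Set Filter Metric MeasureTheory
open scoped Topology ContDiff ComplexConjugate ENNReal

set_option linter.unusedSectionVars false
set_option linter.deprecated false
set_option linter.unusedVariables false

noncomputable section

namespace Vale.Agent.P281.H864

open Vale.Agent.P281.H64

/-- the density of `da ∧ db` -/
def wd (a b : ℂ → ℂ) (z : ℂ) : ℂ :=
  fderiv ℝ a z 1 * fderiv ℝ b z Complex.I - fderiv ℝ a z Complex.I * fderiv ℝ b z 1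

theorem wd_congr {a a' b b' : ℂ → ℂ} {z : ℂ} (h : a =ᶠ[𝓝 z] a') (h' : b =ᶠ[𝓝 z] b') :
    wd a b z = wd a' b' z := by
  unfold wd
  rw [h.fderiv_eq, h'.fderiv_eq]

theorem det_complex (L : ℂ →L[ℝ] ℂ) :
    L.det = (L 1).re * (L Complex.I).im - (L 1).im * (L Complex.I).re := by
  unfold ContinuousLinearMap.det
  rw [← LinearMap.det_toMatrix Complex.basisOneI, Matrix.det_fin_two]
  simp [LinearMap.toMatrix_apply]
  ring

theorem wd_comp {a b ψ : ℂ → ℂ} {z w : ℂ} (hz : ψ z = w) (ha : DifferentiableAt ℝ a w)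
    (hb : DifferentiableAt ℝ b w) (hψ : DifferentiableAt ℝ ψ z) :
    wd (fun u => a (ψ u)) (fun u => b (ψ u)) z = (fderiv ℝ ψ z).det • wd a b w := by
  subst hz
  have h1 : fderiv ℝ (fun u => a (ψ u)) z = (fderiv ℝ a (ψ z)).comp (fderiv ℝ ψ z) :=
    (ha.hasFDerivAt.comp z hψ.hasFDerivAt).fderiv
  have h2 : fderiv ℝ (fun u => b (ψ u)) z = (fderiv ℝ b (ψ z)).comp (fderiv ℝ ψ z) :=
    (hb.hasFDerivAt.comp z hψ.hasFDerivAt).fderiv
  unfold wd
  rw [h1, h2, det_complex]
  simp only [ContinuousLinearMap.comp_apply]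
  set L := fderiv ℝ ψ z
  have key : ∀ (M : ℂ →L[ℝ] ℂ) (x : ℂ), M x = x.re • M 1 + x.im • M Complex.I := by
    intro M x
    rw [← M.map_smul, ← M.map_smul, ← M.map_add]
    congr 1
    apply Complex.ext <;> simp
  rw [key (fderiv ℝ a (ψ z)) (L 1), key (fderiv ℝ a (ψ z)) (L Complex.I),
    key (fderiv ℝ b (ψ z)) (L 1), key (fderiv ℝ b (ψ z)) (L Complex.I)]
  simp only [Complex.real_smul]
  push_cast
  ring

theorem continuousOn_fd {a : ℂ → ℂ} {U : Set ℂ} (hU : IsOpen U) (ha : ContDiffOn ℝ ∞ a U) (v : ℂ) :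
    ContinuousOn (fun z => fderiv ℝ a z v) U :=
  (ha.continuousOn_fderiv_of_isOpen hU (by simp)).clm_apply continuousOn_const

theorem contDiffOn_fd {a : ℂ → ℂ} {U : Set ℂ} (hU : IsOpen U) (ha : ContDiffOn ℝ ∞ a U) (v : ℂ) :
    ContDiffOn ℝ ∞ (fun z => fderiv ℝ a z v) U :=
  (ha.fderiv_of_isOpen hU (by simp)).clm_apply contDiffOn_const

theorem continuousOn_wd {a b : ℂ → ℂ} {U : Set ℂ} (hU : IsOpen U) (ha : ContDiffOn ℝ ∞ a U)
    (hb : ContDiffOn ℝ ∞ b U) : ContinuousOn (wd a b) U :=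
  ((continuousOn_fd hU ha _).mul (continuousOn_fd hU hb _)).sub
    ((continuousOn_fd hU ha _).mul (continuousOn_fd hU hb _))

theorem integrable_of_supp {F : ℂ → ℂ} (hc : ContinuousOn F (ball 0 3))
    (h0 : ∀ z, 2 < ‖z‖ → F z = 0) : Integrable F := by
  have h1 : IntegrableOn F (closedBall 0 2) :=
    (hc.mono (closedBall_subset_ball (by norm_num))).integrableOn_compact (isCompact_closedBall _ _)
  refine (integrableOn_iff_integrable_of_support_subset ?_).1 h1
  intro z hz
  rw [Function.mem_support] at hz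
  rw [mem_closedBall_zero_iff]
  by_contra h
  exact hz (h0 z (not_le.1 h))

theorem smooth_ext_zero {a : ℂ → ℂ} (ha : ContDiffOn ℝ ∞ a (ball 0 3))
    (h0 : ∀ z ∈ ball (0 : ℂ) 3, 2 < ‖z‖ → a z = 0) :
    ContDiff ℝ ∞ ((closedBall (0 : ℂ) 2).indicator a) ∧
    (∀ z ∈ ball (0 : ℂ) 3, (closedBall (0 : ℂ) 2).indicator a =ᶠ[𝓝 z] a) := by
  have h1 : ∀ z ∈ ball (0 : ℂ) 3, (closedBall (0 : ℂ) 2).indicator a z = a z := by
    intro z hz
    by_cases h : z ∈ closedBall (0 : ℂ) 2
    · rw [indicator_of_mem h]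
    · rw [indicator_of_notMem h, h0 z hz]
      simpa using h
  have h2 : ∀ z ∈ ball (0 : ℂ) 3, (closedBall (0 : ℂ) 2).indicator a =ᶠ[𝓝 z] a := fun z hz => by
    filter_upwards [isOpen_ball.mem_nhds hz] with u hu using h1 u hu
  refine ⟨?_, h2⟩
  rw [contDiff_iff_contDiffAt]
  intro z
  by_cases hz : z ∈ ball (0 : ℂ) 3
  · exact (ha.contDiffAt (isOpen_ball.mem_nhds hz)).congr_of_eventuallyEq (h2 z hz)
  · have h3 : z ∈ (closedBall (0 : ℂ) 2)ᶜ := by
      intro h
      exact hz (closedBall_subset_ball (by norm_num) h)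
    refine (contDiffAt_const (c := (0 : ℂ))).congr_of_eventuallyEq ?_
    filter_upwards [isClosed_closedBall.isOpen_compl.mem_nhds h3] with u hu
    exact indicator_of_notMem hu _

/-- Stokes' theorem for compactly supported forms in the plane. -/
theorem plane_stokes {a b : ℂ → ℂ} (ha : ContDiffOn ℝ ∞ a (ball 0 3))
    (hb : ContDiffOn ℝ ∞ b (ball 0 3)) (h0 : ∀ z ∈ ball (0 : ℂ) 3, 2 < ‖z‖ → a z = 0) :
    ∫ z in ball (0 : ℂ) 3, wd a b z = 0 := by
  obtain ⟨hA, hAa⟩ := smooth_ext_zero ha h0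
  set A := (closedBall (0 : ℂ) 2).indicator a with hAdef
  have hA0 : ∀ z, 2 < ‖z‖ → A =ᶠ[𝓝 z] fun _ => 0 := by
    intro z hz
    have h3 : z ∈ (closedBall (0 : ℂ) 2)ᶜ := by simpa using hz
    filter_upwards [isClosed_closedBall.isOpen_compl.mem_nhds h3] with u hu
    exact indicator_of_notMem hu _
  have hAf0 : ∀ z, 2 < ‖z‖ → ∀ v, fderiv ℝ A z v = 0 := by
    intro z hz v
    rw [(hA0 z hz).fderiv_eq]
    simp
  have hts : tsupport A ⊆ closedBall 0 2 :=
    closure_minimal (support_indicator_subset) isClosed_closedBall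
  have hts3 : tsupport A ⊆ ball 0 3 := hts.trans (closedBall_subset_ball (by norm_num))
  have h1 : ∫ z in ball (0 : ℂ) 3, wd a b z = ∫ z, wd A b z := by
    rw [setIntegral_congr_fun (g := wd A b) isOpen_ball.measurableSet
      (fun z hz => (wd_congr (hAa z hz) (EventuallyEq.refl _ _)).symm)]
    refine setIntegral_eq_integral_of_forall_compl_eq_zero fun z hz => ?_
    have hz2 : 2 < ‖z‖ := by
      have : ¬ ‖z‖ < 3 := by simpa using hz
      linarith [not_lt.1 this]
    unfold wd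
    rw [hAf0 z hz2, hAf0 z hz2]
    ring
  have hAc : ∀ v, ContinuousOn (fun z => fderiv ℝ A z v) (ball 0 3) := fun v =>
    (continuousOn_fd isOpen_ball hA.contDiffOn v)
  have key : ∀ v w : ℂ, ∫ z, fderiv ℝ A z v * fderiv ℝ b z w =
      -∫ z, A z * fderiv ℝ (fun z => fderiv ℝ b z w) z v := by
    intro v w
    have hbw := contDiffOn_fd isOpen_ball hb w
    have h := integral_mul_fderiv_eq_neg_fderiv_mul_of_integrable (μ := (volume : Measure ℂ))
      (f := A) (g := fun z => fderiv ℝ b z w) (v := v)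
      (integrable_of_supp ((hAc v).mul (continuousOn_fd isOpen_ball hb w)) fun z hz => by
        simp [hAf0 z hz])
      (integrable_of_supp (hA.continuous.continuousOn.mul
        (continuousOn_fd isOpen_ball hbw v)) fun z hz => by simp [(hA0 z hz).eq_of_nhds])
      (integrable_of_supp (hA.continuous.continuousOn.mul
        (continuousOn_fd isOpen_ball hb w)) fun z hz => by simp [(hA0 z hz).eq_of_nhds])
      (fun z _ => hA.contDiffAt.differentiableAt (by simp))
      (fun z hz => (hbw.contDiffAt (isOpen_ball.mem_nhds (hts3 hz))).differentiableAt (by simp))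
    rw [h, neg_neg]
  have hint : ∀ v w : ℂ, Integrable (fun z => fderiv ℝ A z v * fderiv ℝ b z w) := by
    intro v w
    refine integrable_of_supp ((hAc v).mul (continuousOn_fd isOpen_ball hb w)) fun z hz => ?_
    simp [hAf0 z hz]
  rw [h1]
  unfold wd
  rw [integral_sub (hint _ _) (hint _ _), key, key, sub_neg_eq_add, neg_add_eq_sub, sub_eq_zero]
  refine integral_congr_ae (Eventually.of_forall fun z => ?_)
  by_cases hz : z ∈ ball (0 : ℂ) 3
  · have hbz := hb.contDiffAt (isOpen_ball.mem_nhds hz)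
    have hsym : IsSymmSndFDerivAt ℝ b z := hbz.isSymmSndFDerivAt (by
      rw [minSmoothness_of_isRCLikeNormedField]
      exact WithTop.coe_le_coe.2 (le_top : (2 : ℕ∞) ≤ ⊤))
    have hd : DifferentiableAt ℝ (fderiv ℝ b) z :=
      (hbz.fderiv_right (m := ∞) (by simp)).differentiableAt (by simp)
    have e : ∀ v w : ℂ, fderiv ℝ (fun z => fderiv ℝ b z w) z v = fderiv ℝ (fderiv ℝ b) z v w := by
      intro v w
      have := (hd.hasFDerivAt.clm_apply (hasFDerivAt_const w z)).fderiv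
      rw [this]
      simp
    simp only [e]
    rw [hsym]
  · have hz2 : 2 < ‖z‖ := by
      have : ¬ ‖z‖ < 3 := by simpa using hz
      linarith [not_lt.1 this]
    simp [(hA0 z hz2).eq_of_nhds]

end Vale.Agent.P281.H864
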