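import Vale.Agent.P281.H864.Plane

/-!
# P281, blocks E2, E3 (helper864): smooth functions, partition of unity, Stokes on the surface
-/

open Set Filter Metric MeasureTheory
open scoped Topology ContDiff ComplexConjugate ENNReal

set_option linter.unusedSectionVars false
set_option linter.deprecated false
set_option linter.unusedVariables false

noncomputable section

namespace Vale.Agent.P281.H864

open Vale.Agent.P281.H64

variable {E Γ : Type} [TopologicalSpace E] [Group Γ] [MulAction Γ E]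

theorem smooth_iff {S : Sheets E Γ} {u : E → ℂ} : S.Smooth u ↔ ∀ (i : Fin S.N) (γ : Γ),
    ∀ z ∈ ball (0 : ℂ) 3, ContDiffAt ℝ ∞ (fun z => u (γ • S.σ i z)) z := by
  constructor
  · intro h i γ z hz
    exact (h i γ).contDiffAt (isOpen_ball.mem_nhds hz)
  · intro h i γ z hz
    exact (h i γ z hz).contDiffWithinAt

theorem Smooth.self {S : Sheets E Γ} {u : E → ℂ} (h : S.Smooth u) (i : Fin S.N) :
    ContDiffOn ℝ ∞ (fun z => u (S.σ i z)) (ball 0 3) := by
  have := h i 1
  simpa using this

theorem Smooth.mul {S : Sheets E Γ} {u v : E → ℂ} (h : S.Smooth u) (h' : S.Smooth v) :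
    S.Smooth fun e => u e * v e := fun i γ => (h i γ).mul (h' i γ)

theorem Smooth.add {S : Sheets E Γ} {u v : E → ℂ} (h : S.Smooth u) (h' : S.Smooth v) :
    S.Smooth fun e => u e + v e := fun i γ => (h i γ).add (h' i γ)

theorem Smooth.sub {S : Sheets E Γ} {u v : E → ℂ} (h : S.Smooth u) (h' : S.Smooth v) :
    S.Smooth fun e => u e - v e := fun i γ => (h i γ).sub (h' i γ)

theorem Smooth.const {S : Sheets E Γ} (c : ℂ) : S.Smooth fun _ => c :=
  fun i γ => contDiffOn_const

theorem Smooth.sum {S : Sheets E Γ} {ι : Type} (s : Finset ι) {u : ι → E → ℂ}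
    (h : ∀ i ∈ s, S.Smooth (u i)) : S.Smooth fun e => ∑ i ∈ s, u i e :=
  fun j γ => ContDiffOn.sum fun i hi => h i hi j γ

theorem Smooth.div {S : Sheets E Γ} {u v : E → ℂ} (h : S.Smooth u) (h' : S.Smooth v)
    (h0 : ∀ e, v e ≠ 0) : S.Smooth fun e => u e / v e := by
  simp only [div_eq_mul_inv]
  exact fun i γ => (h i γ).mul ((h' i γ).inv fun z _ => h0 _)

variable [ContinuousConstSMul Γ E]

theorem continuousAt_sheet {S : Sheets E Γ} {i : Fin S.N} (γ : Γ) {z : ℂ}
    (hz : z ∈ ball (0 : ℂ) 3) : ContinuousAt (fun z => γ • S.σ i z) z :=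
  ContinuousAt.const_smul (S.map_nhds i z hz).le γ

/-- Smooth functions supported in one sheet. -/
theorem smooth_of_sheet (S : Sheets E Γ) (i : Fin S.N) {f : E → ℂ}
    (h0 : ∀ e, e ∉ V S i (closedBall 0 2) → f e = 0)
    (h1 : ∀ γ : Γ, ContDiffOn ℝ ∞ (fun z => f (γ • S.σ i z)) (ball 0 3)) : S.Smooth f := by
  rw [smooth_iff]
  intro j δ z hz
  by_cases hV : δ • S.σ j z ∈ V S i (ball 0 3)
  · obtain ⟨γ, w, hw, he⟩ := hV
    have he' : S.σ j z = (δ⁻¹ * γ) • S.σ i w := by rw [mul_smul, he, inv_smul_smul]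
    obtain ⟨θ, a1, a2, a3⟩ := S.hol j i z hz w hw _ he'
    have h2 : ContDiffAt ℝ ∞ (fun u => f (γ • S.σ i (θ u))) z := by
      have h3 : ContDiffAt ℝ ∞ (fun w => f (γ • S.σ i w)) (θ z) := by
        rw [a2]
        exact (h1 γ).contDiffAt (isOpen_ball.mem_nhds hw)
      have h4 : ContDiffAt ℝ ∞ θ z := (a1.contDiffAt.restrict_scalars ℝ).of_le le_top
      exact h3.comp z h4
    refine h2.congr_of_eventuallyEq ?_
    filter_upwards [a3] with u hu
    rw [hu, mul_smul, smul_inv_smul]
  · have h2 : δ • S.σ j z ∈ (V S i (closedBall 0 2))ᶜ := fun h =>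
      hV (V_mono (closedBall_subset_ball (by norm_num)) h)
    refine (contDiffAt_const (c := (0 : ℂ))).congr_of_eventuallyEq ?_
    filter_upwards [(continuousAt_sheet δ hz).eventually
      ((isClosed_V (S := S) (i := i) (by norm_num : (2 : ℝ) < 3)).isOpen_compl.mem_nhds h2)]
      with u hu
    exact h0 _ hu

/-- a bump function in the plane -/
def bump : ContDiffBump (0 : ℂ) := ⟨1, 2, one_pos, one_lt_two⟩

open Classical in
/-- the bump function in the sheet `i` -/
def rr (S : Sheets E Γ) (i : Fin S.N) (e : E) : ℝ :=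
  if e ∈ V S i (ball 0 3) then bump (co S i e) else 0

theorem rr_smul (S : Sheets E Γ) (i : Fin S.N) (γ : Γ) (e : E) : rr S i (γ • e) = rr S i e := by
  unfold rr
  by_cases h : e ∈ V S i (ball 0 3)
  · rw [if_pos h, if_pos ((V_smul γ).2 h), co_smul γ h]
  · rw [if_neg h, if_neg (fun h' => h ((V_smul γ).1 h'))]

theorem rr_sheet (S : Sheets E Γ) (i : Fin S.N) (γ : Γ) {z : ℂ} (hz : z ∈ ball (0 : ℂ) 3) :
    rr S i (γ • S.σ i z) = bump z := by
  unfold rr
  rw [if_pos ⟨γ, z, hz, rfl⟩, co_eq hz rfl]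

theorem rr_zero (S : Sheets E Γ) (i : Fin S.N) {e : E} (h : e ∉ V S i (closedBall 0 2)) :
    rr S i e = 0 := by
  unfold rr
  split_ifs with h1
  · apply bump.zero_of_le_dist
    have h2 := ga_smul_co h1
    have : co S i e ∉ closedBall (0 : ℂ) 2 := fun h3 => h ⟨_, _, h3, h2.2⟩
    rw [mem_closedBall, not_le] at this
    exact this.le
  · rfl

theorem rr_nonneg (S : Sheets E Γ) (i : Fin S.N) (e : E) : 0 ≤ rr S i e := by
  unfold rr
  split_ifs with h1
  · exact bump.nonneg
  · rfl

theorem rr_smooth (S : Sheets E Γ) (i : Fin S.N) : S.Smooth fun e => (rr S i e : ℂ) := by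
  refine smooth_of_sheet S i (fun e he => by rw [rr_zero S i he, Complex.ofReal_zero]) fun γ => ?_
  have h1 : ContDiff ℝ ∞ fun z => ((bump z : ℝ) : ℂ) :=
    Complex.ofRealCLM.contDiff.comp bump.contDiff
  refine h1.contDiffOn.congr fun z hz => ?_
  simp only [rr_sheet S i γ hz]

/-- the sum of the bump functions -/
def R (S : Sheets E Γ) (e : E) : ℝ := ∑ i, rr S i e

theorem R_pos (S : Sheets E Γ) (e : E) : 0 < R S e := by
  obtain ⟨γ, i, z, hz, he⟩ := S.cover e
  have h1 : rr S i e = 1 := by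
    rw [← he, rr_sheet S i γ (ball13 (by simpa using hz))]
    apply bump.one_of_mem_closedBall
    rw [mem_closedBall_zero_iff]
    exact hz.le
  have h2 : rr S i e ≤ R S e :=
    Finset.single_le_sum (fun j _ => rr_nonneg S j e) (Finset.mem_univ i)
  linarith

theorem R_smul (S : Sheets E Γ) (γ : Γ) (e : E) : R S (γ • e) = R S e := by
  unfold R
  simp only [rr_smul]

/-- the partition of unity -/
def chi (S : Sheets E Γ) (i : Fin S.N) (e : E) : ℂ := (rr S i e : ℂ) / (R S e : ℂ)

theorem chi_smooth (S : Sheets E Γ) (i : Fin S.N) : S.Smooth (chi S i) := by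
  have h1 : S.Smooth fun e => (R S e : ℂ) := by
    have : (fun e => (R S e : ℂ)) = fun e => ∑ i, (rr S i e : ℂ) := by
      ext e
      unfold R
      push_cast
      rfl
    rw [this]
    exact Smooth.sum _ fun j _ => rr_smooth S j
  exact Smooth.div (rr_smooth S i) h1 fun e => by
    exact_mod_cast (R_pos S e).ne'

theorem chi_smul (S : Sheets E Γ) (i : Fin S.N) (γ : Γ) (e : E) :
    chi S i (γ • e) = chi S i e := by
  unfold chi
  rw [rr_smul, R_smul]

theorem chi_zero (S : Sheets E Γ) (i : Fin S.N) {e : E} (h : e ∉ V S i (closedBall 0 2)) :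
    chi S i e = 0 := by
  unfold chi
  rw [rr_zero S i h]
  simp

theorem chi_sum (S : Sheets E Γ) (e : E) : ∑ i, chi S i e = 1 := by
  unfold chi
  rw [← Finset.sum_div]
  have h1 : ((R S e : ℝ) : ℂ) = ∑ i, (rr S i e : ℂ) := by
    unfold R
    push_cast
    rfl
  rw [← h1]
  exact div_self (by exact_mod_cast (R_pos S e).ne')

/-- the smooth additive function with periods `φ` -/
def uu (S : Sheets E Γ) (φ : Γ → ℂ) (e : E) : ℂ := ∑ i, chi S i e * φ (ga S i e)

theorem uu_smooth (S : Sheets E Γ) (φ : Γ → ℂ) : S.Smooth (uu S φ) := by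
  refine Smooth.sum _ fun i _ => ?_
  refine smooth_of_sheet S i (fun e he => by rw [chi_zero S i he, zero_mul]) fun γ => ?_
  refine ((chi_smooth S i i γ).mul (contDiffOn_const (c := φ γ))).congr fun z hz => ?_
  rw [ga_eq hz rfl]

theorem uu_add (S : Sheets E Γ) {φ : Γ → ℂ} (hφ : ∀ x y, φ (x * y) = φ x + φ y) (γ : Γ) (e : E) :
    uu S φ (γ • e) = uu S φ e + φ γ := by
  unfold uu
  have h1 : ∀ i, chi S i (γ • e) * φ (ga S i (γ • e)) =
      chi S i e * φ (ga S i e) + chi S i e * φ γ := by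
    intro i
    rw [chi_smul]
    by_cases h : e ∈ V S i (ball 0 3)
    · rw [ga_smul γ h, hφ]
      ring
    · have : chi S i e = 0 := chi_zero S i fun h' =>
        h (V_mono (closedBall_subset_ball (by norm_num)) h')
      rw [this]
      ring
  simp only [h1, Finset.sum_add_distrib, ← Finset.sum_mul, chi_sum, one_mul]

/-- the density of `du ∧ dv` -/
def W (S : Sheets E Γ) (u v : E → ℂ) (i : Fin S.N) (z : ℂ) : ℂ :=
  wd (fun z => u (S.σ i z)) (fun z => v (S.σ i z)) z

theorem continuousOn_W {S : Sheets E Γ} {u v : E → ℂ} (hu : S.Smooth u) (hv : S.Smooth v)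
    (i : Fin S.N) : ContinuousOn (W S u v i) (ball 0 3) :=
  continuousOn_wd isOpen_ball (Smooth.self hu i) (Smooth.self hv i)

theorem integrable_W {S : Sheets E Γ} {u v : E → ℂ} (hu : S.Smooth u) (hv : S.Smooth v)
    (i : Fin S.N) : IntegrableOn (W S u v i) (S.P i) :=
  integrableOn_P S i (continuousOn_W hu hv i)

/-- transformation rule of `du ∧ dv` -/
theorem W_change {S : Sheets E Γ} {u v : E → ℂ} {a b : Γ → ℂ} (hu : S.Smooth u) (hv : S.Smooth v)
    (hua : ∀ γ e, u (γ • e) = u e + a γ) (hvb : ∀ γ e, v (γ • e) = v e + b γ)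
    {q : ℂ → E} {z : ℂ} {j : Fin S.N} {w : ℂ} (hw : w ∈ ball (0 : ℂ) 3) {γ : Γ} {ψ : ℂ → ℂ}
    (hψ : DifferentiableAt ℝ ψ z) (he : ψ z = w) (h3 : ∀ᶠ x in 𝓝 z, q x = γ • S.σ j (ψ x)) :
    wd (fun x => u (q x)) (fun x => v (q x)) z = (fderiv ℝ ψ z).det • W S u v j w := by
  have h4 : (fun x => u (q x)) =ᶠ[𝓝 z] fun x => u (S.σ j (ψ x)) + a γ :=
    h3.mono fun x hx => by simp only [hx, hua]
  have h5 : (fun x => v (q x)) =ᶠ[𝓝 z] fun x => v (S.σ j (ψ x)) + b γ :=
    h3.mono fun x hx => by simp only [hx, hvb]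
  rw [wd_congr h4 h5]
  have d : ∀ {u : E → ℂ}, S.Smooth u → DifferentiableAt ℝ (fun x => u (S.σ j x)) w := fun hu =>
    ((Smooth.self hu j).contDiffAt (isOpen_ball.mem_nhds hw)).differentiableAt (by simp)
  have h6 := wd_comp he (d hu) (d hv) hψ
  unfold W
  rw [← h6]
  unfold wd
  rw [fderiv_add_const, fderiv_add_const]

/-- **Stokes' theorem.** -/
theorem stokes (S : Sheets E Γ) {v h : E → ℂ} {c : Γ → ℂ} (hv : S.Smooth v)
    (hv' : ∀ (γ : Γ) e, v (γ • e) = v e) (hh : S.Smooth h)
    (hc : ∀ γ e, h (γ • e) = h e + c γ) : S.int (W S v h) = 0 := by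
  have hs : ∀ i, S.Smooth fun e => chi S i e * v e := fun i => Smooth.mul (chi_smooth S i) hv
  have h1 : S.int (W S v h) = ∑ i, S.int (W S (fun e => chi S i e * v e) h) := by
    unfold Sheets.int
    rw [Finset.sum_comm]
    refine Finset.sum_congr rfl fun j _ => ?_
    rw [← integral_finset_sum _ (fun i _ => integrable_W (hs i) hh j)]
    refine setIntegral_congr_fun (meas_P S j) fun z hz => ?_
    have hz3 := P_subset3 S j hz
    have d : ∀ i, DifferentiableAt ℝ (fun z => chi S i (S.σ j z) * v (S.σ j z)) z := fun i =>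
      ((Smooth.self (hs i) j).contDiffAt (isOpen_ball.mem_nhds hz3)).differentiableAt (by simp)
    have h2 : fderiv ℝ (fun z => v (S.σ j z)) z =
        ∑ i, fderiv ℝ (fun z => chi S i (S.σ j z) * v (S.σ j z)) z := by
      rw [← fderiv_fun_sum (fun i _ => d i)]
      congr 1
      ext z
      rw [← Finset.sum_mul, chi_sum, one_mul]
    simp only [W, wd]
    rw [h2]
    simp only [ContinuousLinearMap.sum_apply, Finset.sum_mul, Finset.sum_sub_distrib]
  rw [h1]
  refine Finset.sum_eq_zero fun i _ => ?_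
  have supp0 : ∀ z ∈ ball (0 : ℂ) 3, z ∉ closedBall (0 : ℂ) 2 → chi S i (S.σ i z) = 0 := by
    intro z hz hz2
    apply chi_zero
    intro h
    rw [co_mem (closedBall_subset_ball (by norm_num))] at h
    have h3 : co S i (S.σ i z) = z := co_eq (γ := 1) hz (one_smul _ _)
    rw [h3] at h
    exact hz2 h.2
  have h2 : S.int (W S (fun e => chi S i e * v e) h) =
      ∫ z in ball (0 : ℂ) 3, W S (fun e => chi S i e * v e) h i z := by
    have h3 := int_family (S := S) (M := 1) (q := fun _ => S.σ i) (A := fun _ => ball 0 3)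
      (fun _ => nice_self S i) (fun k l hkl => absurd (Subsingleton.elim k l) hkl)
      (d := W S (fun e => chi S i e * v e) h)
      (g := fun _ => W S (fun e => chi S i e * v e) h i)
      (fun j => integrable_W (hs i) hh j) (fun _ => ?_) ?_ ?_
    · rw [← h3]
      simp
    · have a1 : IntegrableOn (W S (fun e => chi S i e * v e) h i) (closedBall 0 2) :=
        ((continuousOn_W (hs i) hh i).mono
          (closedBall_subset_ball (by norm_num))).integrableOn_compact (isCompact_closedBall _ _)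
      refine a1.of_forall_diff_eq_zero isOpen_ball.measurableSet ?_
      rintro z ⟨hz, hz'⟩
      have h5 : (fun z => chi S i (S.σ i z) * v (S.σ i z)) =ᶠ[𝓝 z] fun _ => 0 := by
        filter_upwards [isOpen_ball.mem_nhds hz, isClosed_closedBall.isOpen_compl.mem_nhds hz']
          with u hu hu'
        rw [supp0 u hu hu', zero_mul]
      unfold W
      rw [wd_congr h5 (EventuallyEq.refl _ _)]
      simp [wd]
    · rintro _ j z ⟨hz, γ, w, hw, he⟩
      have hw3 := P_subset3 S j hw
      have h1 := (nice_self S i).eventually hz j hw3 he.symm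
      unfold jd
      rw [abs_of_nonneg h1.2.1, co_eq hw3 he]
      exact W_change (a := fun _ => 0) (hs i) hh (fun γ e => by simp [chi_smul, hv']) hc hw3
        h1.1 (co_eq hw3 he) (h1.2.2.mono fun u hu => hu.2)
    · intro j z hz hne
      by_contra hcon
      push Not at hcon
      apply hne
      have h4 : S.σ j z ∈ (V S i (closedBall 0 2))ᶜ := by
        rintro ⟨γ, w, hw, he⟩
        exact hcon 0 γ w (closedBall_subset_ball (by norm_num) hw) he
      have h5 : (fun z => chi S i (S.σ j z) * v (S.σ j z)) =ᶠ[𝓝 z] fun _ => 0 := by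
        have h6 : ContinuousAt (S.σ j) z := (S.map_nhds j z (P_subset3 S j hz)).le
        filter_upwards [h6.eventually
          ((isClosed_V (S := S) (i := i) (by norm_num : (2 : ℝ) < 3)).isOpen_compl.mem_nhds h4)]
          with u hu
        rw [chi_zero S i hu, zero_mul]
      unfold W
      rw [wd_congr h5 (EventuallyEq.refl _ _)]
      simp [wd]
  rw [h2]
  refine plane_stokes (Smooth.self (hs i) i) (Smooth.self hh i) fun z hz hz2 => ?_
  have : z ∉ closedBall (0 : ℂ) 2 := by simpa using hz2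
  simp only [supp0 z hz this, zero_mul]

end Vale.Agent.P281.H864
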